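import Vale.Agent.P372.Main

/-!
# P372: secret key from every entangled three-level state of a standard family
-/

noncomputable section

open scoped BigOperators ComplexOrder Classical
open Matrix Vale.P372

namespace Vale.Agent.Results.P372.FamilyKey

theorem result :
    (∀ (d : ℕ) (c : Fin d → Fin d → ℝ), 0 < d → (∀ i j, i ≠ j → 0 ≤ c i j) →
      ∑ x, rhoC c x x = 1 ∧
        ∃ (m : ℕ) (ψ : Fin d → Fin d → Fin m → ℂ), Purifies ψ (rhoC c)) ∧
    (∀ (d : ℕ) (c : Fin d → Fin d → ℝ), (∀ i j, i ≠ j → 0 ≤ c i j) →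
      ((∃ i j, i ≠ j ∧ c i j * c j i < 1) ∨
        (∃ i j k, i ≠ j ∧ j ≠ k ∧ k ≠ i ∧ c i j * c j k * c k i < 1)) →
      KeyPositive (rhoC c)) ∧
    (∀ c : Fin 3 → Fin 3 → ℝ, (∀ i j, i ≠ j → 0 ≤ c i j) →
      IsSeparable (rhoC c) ∨ KeyPositive (rhoC c)) ∧
    (∀ α : ℝ, 3 < α → α ≤ 5 → KeyPositive (rhoC (horodeckiC α))) :=
  ⟨fun _ _ hd hc => ⟨rhoC_trace hd hc, rhoC_purifiable hd hc⟩,
    fun _ _ hc h => family_keyPositive hc h,
    fun _ hc => three_dichotomy hc,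
    fun _ h3 h5 => horodecki_keyPositive h3 h5⟩

end Vale.Agent.Results.P372.FamilyKey
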